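import Vale.Agent.Lib.Helper5.P054Curve

/-!
Distinct distances for point sets on polynomial curves in `ℝ ^ d`.

Points of `ℝ ^ d` are elements of `EuclideanSpace ℝ (Fin d)` with coordinates `q i` and the
Euclidean distance `dist`.  A polynomial curve of degree at most `k` is given by `d` real
polynomials `γ i` of degree at most `k`; its points are the `q` with `q i = (γ i).eval t` for
all `i`, for some real `t`.  For a finite set `P`, the set of distances determined by `P` is
`P.offDiag.image (fun pq => dist pq.1 pq.2)`, and the set of distances pinned at `x` is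
`(P.erase x).image (fun y => dist y x)`.

If a nonempty finite set `P` is covered by `m` polynomial curves of degree at most `k`, then
some `x ∈ P` has `|P| ≤ m (2 k |D_x(P)| + 1)`, and therefore `|P| ≤ m (2 k |Δ(P)| + 1)`.
-/

namespace Vale.Agent.Results.P054.PolynomialCurves

open Vale.Agent.Lib.Helper5.P054Curve

theorem result :
    ∀ (d m k : ℕ) (γ : Fin m → Fin d → Polynomial ℝ), (∀ j i, (γ j i).natDegree ≤ k) →
      ∀ P : Finset (EuclideanSpace ℝ (Fin d)), P.Nonempty →
        (∀ q ∈ P, ∃ j, ∃ t : ℝ, ∀ i, q i = (γ j i).eval t) →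
        (∃ x ∈ P, P.card ≤ m * (2 * k * ((P.erase x).image (fun y => dist y x)).card + 1)) ∧
        P.card ≤ m * (2 * k * (P.offDiag.image (fun pq => dist pq.1 pq.2)).card + 1) := by
  intro d m k γ hγ P hne hcov
  exact ⟨exists_pin m k γ hγ P hne hcov, card_le_distances m k γ hγ P hne hcov⟩

end Vale.Agent.Results.P054.PolynomialCurves
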